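import Vale.Agent.P086.Main

/-!
# P086: at most `m` members of a free basis of `L(F_m)` are Sobolev regular
-/

open scoped InnerProductSpace
open Vale.Agent.P086

namespace Vale.Agent.Results.P086.SobolevRigidity

/-- Sobolev rigidity of trace-preserving isomorphisms between free group factors, and existence of
the models with the witness of sharpness. -/
theorem result :
    (∀ (m : ℕ) (ι : Type) [DecidableEq ι], Rigidity m ι) ∧
      ∀ (ι : Type) [DecidableEq ι], ModelExists ι := by
  refine ⟨fun m ι _ A B f hf => ?_, fun ι _ => ?_⟩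
  · have hB := exists_basis A B f hf
    have main : ∀ (s : ι → ℝ) (F : Finset ι),
        (∀ i ∈ F, 0 ≤ s i ∧ s i ≤ 1 ∧ B.InSobolev (s i) (f (A.S i))) → ∑ i ∈ F, s i ≤ m :=
      fun s F hs => sum_exponents_le hB s F fun i hi => by
        refine ⟨(hs i hi).1, (hs i hi).2.1, ?_⟩
        simpa only [coord_toFock, Model.InSobolev, Model.coef] using (hs i hi).2.2
    refine ⟨main, fun σ hσ hσ1 => ?_⟩
    by_contra hinf
    obtain ⟨n, hn⟩ := exists_nat_gt ((m : ℝ) / σ)
    obtain ⟨F, hFsub, hFcard⟩ := Set.Infinite.exists_subset_card_eq hinf n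
    have h := main (fun _ => σ) F (fun i hi => ⟨hσ.le, hσ1, hFsub hi⟩)
    rw [Finset.sum_const, nsmul_eq_mul, hFcard] at h
    exact absurd h (not_le.2 ((div_lt_iff₀ hσ).1 hn))
  · refine ⟨fockModel ι, S_mem _, fun i => summable_of_ne_finset_zero (s := {[i]}) fun w hw => ?_⟩
    have hw' : w ≠ [i] := by simpa using hw
    have hne : (fockModel ι).coef ((fockModel ι).S i) w = 0 := by
      rw [Model.coef, (fockModel ι).rule]
      simp only [List.head?_nil, reduceCtorEq, if_false, add_zero]
      exact (fockModel ι).e.orthonormal.2 hw'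
    rw [hne]
    simp

end Vale.Agent.Results.P086.SobolevRigidity
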